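import Mathlib

/-! Immersed hypersurfaces of the round sphere: volume, shape operator, Clifford products. -/

open MeasureTheory
open scoped ENNReal InnerProductSpace Manifold ContDiff

namespace Vale.Agent.P224

noncomputable section

/-- Volume of the unit `n`-sphere. -/
def sphVol (n : ℕ) : ℝ := 2 * Real.pi ^ (((n : ℝ) + 1) / 2) / Real.Gamma (((n : ℝ) + 1) / 2)

/-- Volume of the minimal Clifford product `S^k × S^l`. -/
def cliffVol (k l : ℕ) : ℝ :=
  ((k : ℝ) / (k + l)) ^ ((k : ℝ) / 2) * ((l : ℝ) / (k + l)) ^ ((l : ℝ) / 2) * sphVol k * sphVol l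

/-- The least volume `a_m` of a minimal Clifford product of dimension `m`. -/
def aMin (m : ℕ) : ℝ := sInf ((fun k => cliffVol k (m - k)) '' Set.Ico 1 m)

/-- `F` is a smooth immersion of a manifold modelled on `V` into the vector space `W`. -/
def SmoothImm (V : Type) {W M : Type} [NormedAddCommGroup V] [NormedSpace ℝ V]
    [NormedAddCommGroup W] [NormedSpace ℝ W] [TopologicalSpace M] [ChartedSpace V M]
    (F : M → W) : Prop :=
  ContMDiff 𝓘(ℝ, V) 𝓘(ℝ, W) ∞ F ∧ ∀ x, Function.Injective (mfderiv 𝓘(ℝ, V) 𝓘(ℝ, W) F x)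

variable {m : ℕ}

/-- The `i`-th coordinate derivative. -/
def pd (f : EuclideanSpace ℝ (Fin m) → EuclideanSpace ℝ (Fin (m + 2))) (i : Fin m)
    (y : EuclideanSpace ℝ (Fin m)) : EuclideanSpace ℝ (Fin (m + 2)) :=
  fderiv ℝ f y (EuclideanSpace.single i 1)

/-- Induced metric `g_ij`. -/
def gram (f : EuclideanSpace ℝ (Fin m) → EuclideanSpace ℝ (Fin (m + 2)))
    (y : EuclideanSpace ℝ (Fin m)) : Matrix (Fin m) (Fin m) ℝ :=
  Matrix.of fun i j => ⟪pd f i y, pd f j y⟫_ℝ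

/-- Second fundamental form `h_ij` for the normal vector `ν`. -/
def sff (f : EuclideanSpace ℝ (Fin m) → EuclideanSpace ℝ (Fin (m + 2)))
    (y : EuclideanSpace ℝ (Fin m)) (ν : EuclideanSpace ℝ (Fin (m + 2))) :
    Matrix (Fin m) (Fin m) ℝ :=
  Matrix.of fun i j => ⟪fderiv ℝ (pd f j) y (EuclideanSpace.single i 1), ν⟫_ℝ

/-- Shape operator `g⁻¹ h`. -/
def shape (f : EuclideanSpace ℝ (Fin m) → EuclideanSpace ℝ (Fin (m + 2)))
    (y : EuclideanSpace ℝ (Fin m)) (ν : EuclideanSpace ℝ (Fin (m + 2))) :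
    Matrix (Fin m) (Fin m) ℝ :=
  (gram f y)⁻¹ * sff f y ν

/-- `ν` is a unit vector tangent to the sphere at `f y` and normal to the hypersurface. -/
def IsUnitNormal (f : EuclideanSpace ℝ (Fin m) → EuclideanSpace ℝ (Fin (m + 2)))
    (y : EuclideanSpace ℝ (Fin m)) (ν : EuclideanSpace ℝ (Fin (m + 2))) : Prop :=
  ‖ν‖ = 1 ∧ ⟪f y, ν⟫_ℝ = 0 ∧ ∀ i, ⟪pd f i y, ν⟫_ℝ = 0

variable {M : Type} [TopologicalSpace M] [ChartedSpace (EuclideanSpace ℝ (Fin m)) M]

/-- `F` read in the chart at `x`. -/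
def loc (F : M → EuclideanSpace ℝ (Fin (m + 2))) (x : M) :
    EuclideanSpace ℝ (Fin m) → EuclideanSpace ℝ (Fin (m + 2)) :=
  F ∘ (chartAt (EuclideanSpace ℝ (Fin m)) x).symm

/-- The shape operator has property `P` at every point (in every chart, for both normals). -/
def ShapeAll (F : M → EuclideanSpace ℝ (Fin (m + 2)))
    (P : Matrix (Fin m) (Fin m) ℝ → Prop) : Prop :=
  ∀ x : M, ∀ y ∈ (chartAt (EuclideanSpace ℝ (Fin m)) x).target, ∀ ν,
    IsUnitNormal (loc F x) y ν → P (shape (loc F x) y ν)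

/-- Volume of `(M, F^* g)`: supremum of `∑ ∫ √(det g)` over finite families of measurable chart
pieces that are pairwise disjoint in `M`. -/
def vol (F : M → EuclideanSpace ℝ (Fin (m + 2))) : ℝ≥0∞ :=
  ⨆ (n : ℕ) (x : Fin n → M) (s : Fin n → Set (EuclideanSpace ℝ (Fin m)))
    (_ : (∀ i, MeasurableSet (s i) ∧
        s i ⊆ (chartAt (EuclideanSpace ℝ (Fin m)) (x i)).target) ∧
      ∀ i j, i ≠ j → Disjoint ((chartAt (EuclideanSpace ℝ (Fin m)) (x i)).symm '' s i)
        ((chartAt (EuclideanSpace ℝ (Fin m)) (x j)).symm '' s j)),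
    ∑ i, ∫⁻ y in s i, ENNReal.ofReal √(gram (loc F (x i)) y).det

end

end Vale.Agent.P224
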